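import Vale.Agent.Lib.P249.helper62.GridDefs

/-!
# The one-coordinate total weight of the discrete Gaussian grid (helper6, for helper62)

gZ_bounds: gZ M lies between (2M+1)/e and 2M+1; gZ_defect: the power 2k of gZ (3k) + 1 is at
most e times the power 2k of gZ (3k);
gX_injective: the Rademacher sums separate the grid points.
-/

namespace Vale.Agent.Lib.P249.H6

open Finset
open Vale.Agent.Lib.P249.H62

/-- each grid value has absolute value at most `M` -/
theorem gv_sq_le (M : ℕ) (t : Fin (2 * M + 1)) : (gv M t) ^ 2 ≤ (M : ℝ) ^ 2 := by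
  unfold gv
  have h1 : ((t : ℕ) : ℝ) ≤ 2 * (M : ℝ) := by
    have : (t : ℕ) ≤ 2 * M := Nat.lt_succ_iff.mp t.isLt
    exact_mod_cast this
  have h0 : (0 : ℝ) ≤ ((t : ℕ) : ℝ) := Nat.cast_nonneg _
  have hM0 : (0 : ℝ) ≤ (M : ℝ) := Nat.cast_nonneg _
  nlinarith

/-- each weight lies in `[1/e, 1]` -/
theorem gphi_bounds (M : ℕ) (hM : 1 ≤ M) (t : Fin (2 * M + 1)) :
    1 / Real.exp 1 ≤ gphi M t ∧ gphi M t ≤ 1 := by
  have hMpos : (0 : ℝ) < (M : ℝ) ^ 2 := by
    have : (0 : ℝ) < (M : ℝ) := by exact_mod_cast hM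
    positivity
  unfold gphi
  constructor
  · rw [one_div, ← Real.exp_neg]
    apply Real.exp_le_exp.mpr
    rw [neg_div, neg_le_neg_iff, div_le_one hMpos]
    exact gv_sq_le M t
  · rw [← Real.exp_zero]
    apply Real.exp_le_exp.mpr
    have : 0 ≤ (gv M t) ^ 2 / (M : ℝ) ^ 2 := by positivity
    rw [neg_div]
    linarith

/-- J-I1: bounds on the one-coordinate total weight. -/
theorem gZ_bounds (M : ℕ) (hM : 1 ≤ M) :
    (2 * (M : ℝ) + 1) / Real.exp 1 ≤ gZ M ∧ gZ M ≤ 2 * (M : ℝ) + 1 := by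
  unfold gZ
  constructor
  · have h1 : ∑ _t : Fin (2 * M + 1), (1 / Real.exp 1) ≤ ∑ t : Fin (2 * M + 1), gphi M t :=
      Finset.sum_le_sum fun t _ => (gphi_bounds M hM t).1
    rw [Finset.sum_const, Finset.card_univ, Fintype.card_fin, nsmul_eq_mul] at h1
    have h2 : (2 * (M : ℝ) + 1) / Real.exp 1 = ((2 * M + 1 : ℕ) : ℝ) * (1 / Real.exp 1) := by
      push_cast; ring
    rw [h2]
    exact h1
  · have h1 : ∑ t : Fin (2 * M + 1), gphi M t ≤ ∑ _t : Fin (2 * M + 1), (1 : ℝ) :=
      Finset.sum_le_sum fun t _ => (gphi_bounds M hM t).2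
    rw [Finset.sum_const, Finset.card_univ, Fintype.card_fin, nsmul_eq_mul] at h1
    have h2 : 2 * (M : ℝ) + 1 = ((2 * M + 1 : ℕ) : ℝ) * 1 := by
      push_cast; ring
    rw [h2]
    exact h1

/-- J-I2: the defect is summable: the power 2k of Z + 1 is at most e times the power 2k of Z,
for M = 3k. -/
theorem gZ_defect (k : ℕ) (hk : 1 ≤ k) :
    (gZ (3 * k) + 1) ^ (2 * k) ≤ Real.exp 1 * gZ (3 * k) ^ (2 * k) := by
  have h3k : 1 ≤ 3 * k := by omega
  have hb := (gZ_bounds (3 * k) h3k).1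
  have hk1 : (1 : ℝ) ≤ (k : ℝ) := by exact_mod_cast hk
  have he3 : Real.exp 1 < 3 := Real.exp_one_lt_three
  have hepos : 0 < Real.exp 1 := Real.exp_pos 1
  -- gZ ≥ 2k
  have hZ2k : 2 * (k : ℝ) ≤ gZ (3 * k) := by
    refine le_trans ?_ hb
    rw [le_div_iff₀ hepos]
    push_cast
    nlinarith
  have hZpos : 0 < gZ (3 * k) := by linarith
  -- Z + 1 ≤ Z * exp (1/Z)
  have h1 : gZ (3 * k) + 1 ≤ gZ (3 * k) * Real.exp (1 / gZ (3 * k)) := by
    have h := Real.add_one_le_exp (1 / gZ (3 * k))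
    have h' : gZ (3 * k) * (1 / gZ (3 * k) + 1) ≤ gZ (3 * k) * Real.exp (1 / gZ (3 * k)) :=
      mul_le_mul_of_nonneg_left h hZpos.le
    have h'' : gZ (3 * k) * (1 / gZ (3 * k) + 1) = gZ (3 * k) + 1 := by
      field_simp
      ring
    linarith
  have h2 : (gZ (3 * k) + 1) ^ (2 * k)
      ≤ (gZ (3 * k) * Real.exp (1 / gZ (3 * k))) ^ (2 * k) :=
    pow_le_pow_left₀ (by linarith) h1 _
  have h3 : Real.exp (1 / gZ (3 * k)) ^ (2 * k) ≤ Real.exp 1 := by
    rw [← Real.exp_nat_mul]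
    apply Real.exp_le_exp.mpr
    push_cast
    rw [mul_one_div, div_le_one hZpos]
    exact hZ2k
  have h4 : 0 ≤ gZ (3 * k) ^ (2 * k) := by positivity
  calc (gZ (3 * k) + 1) ^ (2 * k)
      ≤ (gZ (3 * k) * Real.exp (1 / gZ (3 * k))) ^ (2 * k) := h2
    _ = gZ (3 * k) ^ (2 * k) * Real.exp (1 / gZ (3 * k)) ^ (2 * k) := mul_pow _ _ _
    _ ≤ gZ (3 * k) ^ (2 * k) * Real.exp 1 := mul_le_mul_of_nonneg_left h3 h4
    _ = Real.exp 1 * gZ (3 * k) ^ (2 * k) := mul_comm _ _

/-- the value map of the grid is injective -/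
theorem gv_injective (M : ℕ) : Function.Injective (gv M) := by
  intro s t h
  unfold gv at h
  have h1 : ((s : ℕ) : ℝ) = ((t : ℕ) : ℝ) := by linarith
  have h2 : (s : ℕ) = (t : ℕ) := by exact_mod_cast h1
  exact Fin.ext h2

/-- J-L1: the points are distinct. -/
theorem gX_injective (M k : ℕ) : Function.Injective (gX M k) := by
  intro x y hxy
  funext i
  apply gv_injective M
  -- evaluate at the all-plus sign pattern and at the pattern with one minus sign
  have h0 := congrFun hxy (fun _ => false)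
  have h1 := congrFun hxy (Function.update (fun _ => false) i true)
  unfold gX at h0 h1
  have key : ∀ z : Fin k → Fin (2 * M + 1),
      ∑ j, gv M (z j) * sg (Function.update (fun _ => false) i true j)
        = ∑ j, gv M (z j) * sg false - 2 * gv M (z i) := by
    intro z
    have hpt : ∀ j ∈ (Finset.univ : Finset (Fin k)),
        gv M (z j) * sg (Function.update (fun _ => false) i true j)
          = gv M (z j) * sg false - (if j = i then 2 * gv M (z i) else 0) := by
      intro j _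
      by_cases hji : j = i
      · subst hji
        simp [sg]
        ring
      · simp [sg, hji]
    rw [Finset.sum_congr rfl hpt, Finset.sum_sub_distrib, Finset.sum_ite_eq']
    simp
  rw [key x, key y] at h1
  linarith

end Vale.Agent.Lib.P249.H6
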