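import Vale.Agent.Lib.P249.helper6.GZ

/-!
# Finite core of the grid lower bound, from its ingredients (helper6, backup for helper62)

grid_core_of is the statement J-K of the skeleton (report 2004) with the four ingredients
grid_conc, khin_upper, khin_lower, grid_spread as explicit hypotheses in their exact skeleton
form; gZ_bounds and gZ_defect are taken from GZ.lean.
-/

namespace Vale.Agent.Lib.P249.H6

open Finset
open Vale.Agent.Lib.P249.H62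

theorem gPhi_nonneg (M k : ℕ) (x : Fin k → Fin (2 * M + 1)) : 0 ≤ gPhi M k x := by
  unfold gPhi
  exact Finset.prod_nonneg fun j _ => by unfold gphi; exact (Real.exp_pos _).le

theorem gdist2_nonneg (M k : ℕ) (x y : Fin k → Fin (2 * M + 1)) : 0 ≤ gdist2 M k x y := by
  unfold gdist2
  exact Finset.sum_nonneg fun j _ => sq_nonneg _

theorem gX_sub (M k : ℕ) (x y : Fin k → Fin (2 * M + 1)) (e : Fin k → Bool) :
    gX M k x e - gX M k y e = ∑ j, (gv M (x j) - gv M (y j)) * sg (e j) := by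
  unfold gX
  rw [← Finset.sum_sub_distrib]
  exact Finset.sum_congr rfl fun j _ => by ring

/-- the final algebra of the grid core -/
theorem core_alg (sq tk Zk Zk1 U1 U2 U3 u A B W G T e dr : ℝ)
    (hsq : 0 < sq) (htk : 0 < tk) (hZk : 0 < Zk) (hU2 : 0 < U2) (hU3 : 0 < U3)
    (he3 : e < 2.75) (hd0 : 0 ≤ dr) (hA0 : 0 ≤ A)
    (hB : B = A * sq * 2 * tk * U3)
    (hU1eq : U1 = u * (U2 * U3))
    (hspread : Zk * U1 ≤ G) (hL3 : tk * G ≤ T) (hL1 : sq * T ≤ W)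
    (hWle : W ≤ dr * (2 * Zk1 * U2 * B)) (hdef : Zk1 ≤ e * Zk) :
    1 / 11 * u ≤ A * dr := by
  have hB0 : 0 ≤ B := by rw [hB]; positivity
  have hc1 : sq * (tk * (Zk * U1)) ≤ W := by
    have h1 : tk * (Zk * U1) ≤ tk * G := mul_le_mul_of_nonneg_left hspread htk.le
    have h2 : sq * (tk * (Zk * U1)) ≤ sq * (tk * G) := mul_le_mul_of_nonneg_left h1 hsq.le
    have h3 : sq * (tk * G) ≤ sq * T := mul_le_mul_of_nonneg_left hL3 hsq.le
    linarith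
  have hc2 : W ≤ dr * (2 * (e * Zk) * U2 * B) := by
    have h1 : 0 ≤ U2 * B := mul_nonneg hU2.le hB0
    have h2 : Zk1 * (U2 * B) ≤ e * Zk * (U2 * B) := mul_le_mul_of_nonneg_right hdef h1
    have h3 : 2 * Zk1 * U2 * B ≤ 2 * (e * Zk) * U2 * B := by linarith
    have h4 := mul_le_mul_of_nonneg_left h3 hd0
    linarith
  have hP : 0 < sq * tk * Zk * (U2 * U3) := by positivity
  have hc3 : (sq * tk * Zk * (U2 * U3)) * u
      ≤ (sq * tk * Zk * (U2 * U3)) * (4 * e * (dr * A)) := by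
    have h1 : sq * (tk * (Zk * U1)) = (sq * tk * Zk * (U2 * U3)) * u := by rw [hU1eq]; ring
    have h2 : dr * (2 * (e * Zk) * U2 * B)
        = (sq * tk * Zk * (U2 * U3)) * (4 * e * (dr * A)) := by rw [hB]; ring
    linarith
  have hc4 : u ≤ 4 * e * (dr * A) := le_of_mul_le_mul_left hc3 hP
  have hdA : 0 ≤ dr * A := mul_nonneg hd0 hA0
  nlinarith

/-- the coordinates of a map satisfying the upper distortion bound are Lipschitz -/
theorem core_lip {X : Type*} {d : ℕ} (q : ℝ) (hq0 : 0 < q) (y : X → Fin d → ℝ) (S g : X → X → ℝ)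
    (A sq tk U3 e : ℝ) (hA0 : 0 ≤ A) (hsq : 0 ≤ sq) (htk : 0 ≤ tk) (he : 0 < e)
    (hU3 : U3 = (q / e) ^ (q / 2))
    (hg0 : ∀ c c', 0 ≤ g c c')
    (hup : ∀ c c', ∑ i, |y c i - y c' i| ^ q ≤ A * sq * S c c')
    (hSup : ∀ c c', S c c' ≤ 2 * tk * (q * g c c' / e) ^ (q / 2))
    (i : Fin d) (c c' : X) :
    |y c i - y c' i| ≤ (A * sq * 2 * tk * U3) ^ q⁻¹ * Real.sqrt (g c c') := by
  have hqne : q ≠ 0 := ne_of_gt hq0
  have hU30 : 0 ≤ U3 := by rw [hU3]; positivity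
  have hB0 : 0 ≤ A * sq * 2 * tk * U3 := by positivity
  have hLam0 : 0 ≤ (A * sq * 2 * tk * U3) ^ q⁻¹ := Real.rpow_nonneg hB0 _
  have hLamq : ((A * sq * 2 * tk * U3) ^ q⁻¹) ^ q = A * sq * 2 * tk * U3 :=
    Real.rpow_inv_rpow hB0 hqne
  have hgc := hg0 c c'
  have h1 : |y c i - y c' i| ^ q ≤ ∑ i', |y c i' - y c' i'| ^ q :=
    Finset.single_le_sum (f := fun i' => |y c i' - y c' i'| ^ q)
      (fun i' _ => Real.rpow_nonneg (abs_nonneg _) q) (Finset.mem_univ i)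
  have h2 : A * sq * S c c' ≤ A * sq * (2 * tk * (q * g c c' / e) ^ (q / 2)) :=
    mul_le_mul_of_nonneg_left (hSup c c') (by positivity)
  have h3 : (q * g c c' / e) ^ (q / 2) = U3 * (g c c') ^ (q / 2) := by
    rw [hU3, ← Real.mul_rpow (by positivity) hgc]
    congr 1
    ring
  have h4 : ((A * sq * 2 * tk * U3) ^ q⁻¹ * Real.sqrt (g c c')) ^ q
      = A * sq * 2 * tk * U3 * (g c c') ^ (q / 2) := by
    rw [Real.mul_rpow hLam0 (Real.sqrt_nonneg _), hLamq, Real.sqrt_eq_rpow,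
      ← Real.rpow_mul hgc]
    congr 2
    ring
  have h5 : |y c i - y c' i| ^ q
      ≤ ((A * sq * 2 * tk * U3) ^ q⁻¹ * Real.sqrt (g c c')) ^ q := by
    rw [h4]
    have h6 := hup c c'
    rw [h3] at h2
    have h7 : A * sq * (2 * tk * (U3 * g c c' ^ (q / 2)))
        = A * sq * 2 * tk * U3 * g c c' ^ (q / 2) := by ring
    linarith
  exact (Real.rpow_le_rpow_iff (abs_nonneg _)
    (mul_nonneg hLam0 (Real.sqrt_nonneg _)) hq0).mp h5

/-- weighted double sums are monotone -/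
theorem core_sum_le {X : Type*} [Fintype X] (Φ : X → ℝ) (hΦ0 : ∀ x, 0 ≤ Φ x)
    (a b : X → X → ℝ) (c : ℝ) (h : ∀ x x', c * a x x' ≤ b x x') :
    c * ∑ x, ∑ x', Φ x * Φ x' * a x x' ≤ ∑ x, ∑ x', Φ x * Φ x' * b x x' := by
  rw [Finset.mul_sum]
  refine Finset.sum_le_sum fun x _ => ?_
  rw [Finset.mul_sum]
  refine Finset.sum_le_sum fun x' _ => ?_
  have := mul_le_mul_of_nonneg_left (h x x') (mul_nonneg (hΦ0 x) (hΦ0 x'))
  linarith

/-- the weighted sum of the coordinate sums, coordinate by coordinate -/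
theorem core_coord {X : Type*} [Fintype X] {d : ℕ} (Φ : X → ℝ) (F : X → X → Fin d → ℝ) (C : ℝ)
    (h : ∀ i, ∑ x, ∑ x', Φ x * Φ x' * F x x' i ≤ C) :
    ∑ x, ∑ x', Φ x * Φ x' * ∑ i, F x x' i ≤ d * C := by
  have h1 : ∑ x, ∑ x', Φ x * Φ x' * ∑ i, F x x' i
      = ∑ i : Fin d, ∑ x, ∑ x', Φ x * Φ x' * F x x' i := by
    calc ∑ x, ∑ x', Φ x * Φ x' * ∑ i, F x x' i
        = ∑ x, ∑ x', ∑ i, Φ x * Φ x' * F x x' i := by
          simp_rw [Finset.mul_sum]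
      _ = ∑ x, ∑ i, ∑ x', Φ x * Φ x' * F x x' i :=
          Finset.sum_congr rfl fun x _ => Finset.sum_comm
      _ = ∑ i, ∑ x, ∑ x', Φ x * Φ x' * F x x' i := Finset.sum_comm
  rw [h1]
  refine le_trans (Finset.sum_le_sum fun i _ => h i) ?_
  rw [Finset.sum_const, Finset.card_univ, Fintype.card_fin, nsmul_eq_mul]

/-- the identity between the rpow quantities -/
theorem core_rpow (q kr Mr e e2 : ℝ) (hq : 0 < q) (hk : 0 < kr) (hM : 0 < Mr) (he : 0 < e)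
    (he2 : e2 = e * e) :
    (2 * kr * Mr ^ 2 / (3 * e2)) ^ (q / 2)
      = (2 * kr / (3 * q ^ 2)) ^ (q / 2) * ((q * Mr ^ 2 / e) ^ (q / 2) * (q / e) ^ (q / 2)) := by
  rw [← Real.mul_rpow (by positivity) (by positivity),
    ← Real.mul_rpow (by positivity) (by positivity)]
  congr 1
  rw [he2]
  field_simp

/-- The finite core of the grid lower bound, from the four ingredients. -/
theorem grid_core_of
    (hconc : ∀ (M : ℕ), 1 ≤ M → ∀ (k : ℕ) (q : ℝ), 1 ≤ q → ∀ (Lam : ℝ), 0 ≤ Lam →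
      ∀ (h : (Fin k → Fin (2 * M + 1)) → ℝ),
      (∀ x y, |h x - h y| ≤ Lam * Real.sqrt (gdist2 M k x y)) →
      ∑ x, ∑ y, gPhi M k x * gPhi M k y * |h x - h y| ^ q
        ≤ 2 * (gZ M + 1) ^ (2 * k) * (q * (M : ℝ) ^ 2 / Real.exp 1) ^ (q / 2) * Lam ^ q)
    (hku : ∀ (k : ℕ) (q : ℝ), 0 < q → ∀ (c : Fin k → ℝ),
      ∑ e : Fin k → Bool, |∑ j, c j * sg (e j)| ^ q
        ≤ 2 * 2 ^ k * (q * (∑ j, c j ^ 2) / Real.exp 1) ^ (q / 2))
    (hkl : ∀ (k : ℕ) (q : ℝ), 2 ≤ q → ∀ (c : Fin k → ℝ),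
      (2:ℝ) ^ k * (∑ j, c j ^ 2) ^ (q / 2) ≤ ∑ e : Fin k → Bool, |∑ j, c j * sg (e j)| ^ q)
    (hspread : ∀ (M : ℕ), 1 ≤ M → ∀ (k : ℕ), 1 ≤ k → ∀ (q : ℝ), 2 ≤ q →
      gZ M ^ (2 * k) * (2 * k * (M : ℝ) ^ 2 / (3 * Real.exp 2)) ^ (q / 2)
        ≤ ∑ x, ∑ y, gPhi M k x * gPhi M k y * (gdist2 M k x y) ^ (q / 2))
    (k : ℕ) (hk : 1 ≤ k) (q : ℝ) (hq : 2 ≤ q) (d : ℕ) (s D : ℝ) (hs : 0 < s)
    (y : (Fin k → Fin (2 * (3 * k) + 1)) → Fin d → ℝ)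
    (hlow : ∀ c c', s ^ q * ∑ e, |gX (3 * k) k c e - gX (3 * k) k c' e| ^ q
      ≤ ∑ i, |y c i - y c' i| ^ q)
    (hup : ∀ c c', ∑ i, |y c i - y c' i| ^ q
      ≤ D ^ q * s ^ q * ∑ e, |gX (3 * k) k c e - gX (3 * k) k c' e| ^ q) :
    (1 / 11 : ℝ) * (2 * k / (3 * q ^ 2)) ^ (q / 2) ≤ D ^ q * d := by
  have hq0 : 0 < q := by linarith
  have hq1 : 1 ≤ q := by linarith
  have h3k : 1 ≤ 3 * k := by omega
  have he : 0 < Real.exp 1 := Real.exp_pos 1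
  have he3 : Real.exp 1 < 2.75 := lt_trans Real.exp_one_lt_d9 (by norm_num)
  have he2 : Real.exp 2 = Real.exp 1 * Real.exp 1 := by
    rw [← Real.exp_add]; norm_num
  have hkr : (0:ℝ) < (k:ℝ) := by exact_mod_cast hk
  -- the ingredients at M = 3k
  have hconc' := hconc (3 * k) h3k k q hq1
  have hspread' := hspread (3 * k) h3k k hk q hq
  have hdef := gZ_defect k hk
  have hZb := (gZ_bounds (3 * k) h3k).1
  have hΦ0 : ∀ x, 0 ≤ gPhi (3 * k) k x := gPhi_nonneg (3 * k) k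
  have hg0 : ∀ x x', 0 ≤ gdist2 (3 * k) k x x' := gdist2_nonneg (3 * k) k
  -- abbreviations
  obtain ⟨A, hA⟩ : ∃ A : ℝ, A = D ^ q := ⟨_, rfl⟩
  rw [← hA] at hup ⊢
  obtain ⟨Mr, hMr⟩ : ∃ Mr : ℝ, Mr = ((3 * k : ℕ) : ℝ) := ⟨_, rfl⟩
  have hMr0 : 0 < Mr := by
    rw [hMr]; exact_mod_cast h3k
  rw [← hMr] at hconc' hspread' hZb
  obtain ⟨Z, hZ⟩ : ∃ Z : ℝ, Z = gZ (3 * k) := ⟨_, rfl⟩
  rw [← hZ] at hconc' hspread' hZb hdef
  have hZpos : 0 < Z := lt_of_lt_of_le (by positivity) hZb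
  obtain ⟨Φ, hΦ⟩ : ∃ Φ : (Fin k → Fin (2 * (3 * k) + 1)) → ℝ, Φ = gPhi (3 * k) k := ⟨_, rfl⟩
  rw [← hΦ] at hconc' hspread' hΦ0
  obtain ⟨g, hg⟩ : ∃ g : (Fin k → Fin (2 * (3 * k) + 1)) → (Fin k → Fin (2 * (3 * k) + 1)) → ℝ,
      g = gdist2 (3 * k) k := ⟨_, rfl⟩
  rw [← hg] at hconc' hspread' hg0
  -- the Khinchine bounds for the differences of the points
  have hSup : ∀ c c', ∑ e, |gX (3 * k) k c e - gX (3 * k) k c' e| ^ q
      ≤ 2 * 2 ^ k * (q * g c c' / Real.exp 1) ^ (q / 2) := by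
    intro c c'
    have h1 := hku k q hq0 (fun j => gv (3 * k) (c j) - gv (3 * k) (c' j))
    have h2 : ∑ e, |gX (3 * k) k c e - gX (3 * k) k c' e| ^ q
        = ∑ e : Fin k → Bool,
          |∑ j, (gv (3 * k) (c j) - gv (3 * k) (c' j)) * sg (e j)| ^ q :=
      Finset.sum_congr rfl fun e _ => by rw [gX_sub]
    rw [h2, hg]
    exact h1
  have hSlow : ∀ c c', (2:ℝ) ^ k * (g c c') ^ (q / 2)
      ≤ ∑ e, |gX (3 * k) k c e - gX (3 * k) k c' e| ^ q := by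
    intro c c'
    have h1 := hkl k q hq (fun j => gv (3 * k) (c j) - gv (3 * k) (c' j))
    have h2 : ∑ e, |gX (3 * k) k c e - gX (3 * k) k c' e| ^ q
        = ∑ e : Fin k → Bool,
          |∑ j, (gv (3 * k) (c j) - gv (3 * k) (c' j)) * sg (e j)| ^ q :=
      Finset.sum_congr rfl fun e _ => by rw [gX_sub]
    rw [h2, hg]
    exact h1
  obtain ⟨S, hS⟩ : ∃ S : (Fin k → Fin (2 * (3 * k) + 1)) → (Fin k → Fin (2 * (3 * k) + 1)) → ℝ,
      S = fun c c' => ∑ e, |gX (3 * k) k c e - gX (3 * k) k c' e| ^ q := ⟨_, rfl⟩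
  have hSdef : ∀ c c', ∑ e, |gX (3 * k) k c e - gX (3 * k) k c' e| ^ q = S c c' := by
    intro c c'; rw [hS]
  simp only [hSdef] at hlow hup hSup hSlow
  -- positive reals
  have hsq : 0 < s ^ q := Real.rpow_pos_of_pos hs q
  have htk : (0:ℝ) < 2 ^ k := by positivity
  have hZk : 0 < Z ^ (2 * k) := by positivity
  -- the three weighted double sums
  have hL1 : s ^ q * ∑ x, ∑ x', Φ x * Φ x' * S x x'
      ≤ ∑ x, ∑ x', Φ x * Φ x' * ∑ i, |y x i - y x' i| ^ q :=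
    core_sum_le Φ hΦ0 S (fun x x' => ∑ i, |y x i - y x' i| ^ q) (s ^ q) hlow
  have hL2 : 1 * ∑ x, ∑ x', Φ x * Φ x' * ∑ i, |y x i - y x' i| ^ q
      ≤ ∑ x, ∑ x', Φ x * Φ x' * (A * s ^ q * S x x') :=
    core_sum_le Φ hΦ0 (fun x x' => ∑ i, |y x i - y x' i| ^ q) (fun x x' => A * s ^ q * S x x') 1
      (fun x x' => by rw [one_mul]; exact hup x x')
  have hL2' : ∑ x, ∑ x', Φ x * Φ x' * (A * s ^ q * S x x')
      = A * (s ^ q * ∑ x, ∑ x', Φ x * Φ x' * S x x') := by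
    simp_rw [Finset.mul_sum]
    refine Finset.sum_congr rfl fun x _ => Finset.sum_congr rfl fun x' _ => by ring
  have hL3 : (2:ℝ) ^ k * ∑ x, ∑ x', Φ x * Φ x' * (g x x') ^ (q / 2)
      ≤ ∑ x, ∑ x', Φ x * Φ x' * S x x' :=
    core_sum_le Φ hΦ0 (fun x x' => (g x x') ^ (q / 2)) S ((2:ℝ) ^ k) hSlow
  obtain ⟨T, hT⟩ : ∃ T : ℝ, T = ∑ x, ∑ x', Φ x * Φ x' * S x x' := ⟨_, rfl⟩
  obtain ⟨W, hW⟩ : ∃ W : ℝ, W = ∑ x, ∑ x', Φ x * Φ x' * ∑ i, |y x i - y x' i| ^ q := ⟨_, rfl⟩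
  obtain ⟨G, hG⟩ : ∃ G : ℝ, G = ∑ x, ∑ x', Φ x * Φ x' * (g x x') ^ (q / 2) := ⟨_, rfl⟩
  rw [← hG] at hspread' hL3
  rw [← hT] at hL1 hL2' hL3
  rw [← hW] at hL1 hL2
  rw [hL2', one_mul] at hL2
  -- the rpow quantities
  have hU1eq := core_rpow q k Mr (Real.exp 1) (Real.exp 2) hq0 hkr hMr0 he he2
  have hU2pos : 0 < (q * Mr ^ 2 / Real.exp 1) ^ (q / 2) := by positivity
  have hU3pos : 0 < (q / Real.exp 1) ^ (q / 2) := by positivity
  have hTpos : 0 < T := by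
    have hU1pos : 0 < (2 * (k:ℝ) * Mr ^ 2 / (3 * Real.exp 2)) ^ (q / 2) := by positivity
    have h1 := mul_pos hZk hU1pos
    have h2 : 0 < G := lt_of_lt_of_le h1 hspread'
    have h3 : 0 < (2:ℝ) ^ k * G := mul_pos htk h2
    exact lt_of_lt_of_le h3 hL3
  have hA1 : 1 ≤ A := by
    have h2 : 0 < s ^ q * T := mul_pos hsq hTpos
    by_contra hlt
    have hlt' : A < 1 := not_le.mp hlt
    have h3 : A * (s ^ q * T) < 1 * (s ^ q * T) := mul_lt_mul_of_pos_right hlt' h2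
    linarith
  have hA0 : 0 ≤ A := le_trans zero_le_one hA1
  -- the Lipschitz property of each coordinate and the concentration bound
  have hup' : ∀ c c', ∑ i, |y c i - y c' i| ^ q ≤ A * s ^ q * S c c' := hup
  have hlip := core_lip q hq0 y S g A (s ^ q) (2 ^ k) ((q / Real.exp 1) ^ (q / 2)) (Real.exp 1)
    hA0 hsq.le htk.le he rfl hg0 hup' hSup
  have hB0 : 0 ≤ A * s ^ q * 2 * 2 ^ k * (q / Real.exp 1) ^ (q / 2) := by positivity
  have hWle : W ≤ d * (2 * (Z + 1) ^ (2 * k) * (q * Mr ^ 2 / Real.exp 1) ^ (q / 2)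
      * (A * s ^ q * 2 * 2 ^ k * (q / Real.exp 1) ^ (q / 2))) := by
    rw [hW]
    refine core_coord Φ (fun x x' i => |y x i - y x' i| ^ q) _ ?_
    intro i
    have h3 := hconc' ((A * s ^ q * 2 * 2 ^ k * (q / Real.exp 1) ^ (q / 2)) ^ q⁻¹)
      (Real.rpow_nonneg hB0 _) (fun c => y c i) (fun c c' => hlip i c c')
    rw [Real.rpow_inv_rpow hB0 (ne_of_gt hq0)] at h3
    exact h3
  exact core_alg (s ^ q) (2 ^ k) (Z ^ (2 * k)) ((Z + 1) ^ (2 * k)) _ _ _ _ A _ W G T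
    (Real.exp 1) d hsq htk hZk hU2pos hU3pos he3 (Nat.cast_nonneg d) hA0 rfl hU1eq
    hspread' hL3 hL1 hWle hdef

end Vale.Agent.Lib.P249.H6
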