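import Vale.Agent.Lib.P249.helper62.GridDefs

/-!
# Discrete Prekopa-Leindler inequality on the natural numbers, level form (job 227, helper6)

For finite sets `A B` of natural numbers and functions `F G H` with values in `[0, m]` on
`A`, `B`, both attaining `m`, and `min (F x) (G y) ≤ H (x + y)`:
`∑ A F + ∑ B G - m ≤ ∑ (A + B) H`.
Strong induction on `A.card + B.card`, removing a point where the least value is taken,
with the Cauchy-Davenport bound `#A + #B - 1 ≤ #(A + B)` for linearly ordered cancellative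
semigroups.
-/

namespace Vale.Agent.Lib.P249.H6

open Finset
open scoped Pointwise
open Vale.Agent.Lib.P249.H62

/-- One step of the induction: the least value among `F` on `A` and `G` on `B` is taken by `F`
at `x0`. The induction hypothesis `ih` is available for all smaller card sums. -/
private theorem pl_step (n : ℕ)
    (ih : ∀ k < n, ∀ (A B : Finset ℕ) (F G H : ℕ → ℝ) (m : ℝ), A.card + B.card = k →
      (∀ x ∈ A, 0 ≤ F x) → (∀ y ∈ B, 0 ≤ G y) →
      (∀ x ∈ A, F x ≤ m) → (∀ y ∈ B, G y ≤ m) →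
      (∃ x ∈ A, F x = m) → (∃ y ∈ B, G y = m) →
      (∀ x ∈ A, ∀ y ∈ B, min (F x) (G y) ≤ H (x + y)) →
      ∑ x ∈ A, F x + ∑ y ∈ B, G y - m ≤ ∑ z ∈ A + B, H z)
    (A B : Finset ℕ) (F G H : ℕ → ℝ) (m : ℝ) (hn : A.card + B.card = n)
    (hF0 : ∀ x ∈ A, 0 ≤ F x)
    (hFm : ∀ x ∈ A, F x ≤ m) (hGm : ∀ y ∈ B, G y ≤ m)
    (hFa : ∃ x ∈ A, F x = m) (hGa : ∃ y ∈ B, G y = m)
    (hH : ∀ x ∈ A, ∀ y ∈ B, min (F x) (G y) ≤ H (x + y))
    (x0 : ℕ) (hx0A : x0 ∈ A) (hx0 : ∀ x ∈ A, F x0 ≤ F x) (hx0B : ∀ y ∈ B, F x0 ≤ G y) :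
    ∑ x ∈ A, F x + ∑ y ∈ B, G y - m ≤ ∑ z ∈ A + B, H z := by
  obtain ⟨xm, hxmA, hxm⟩ := hFa
  obtain ⟨ym, hymB, hym⟩ := hGa
  have hAne : A.Nonempty := ⟨xm, hxmA⟩
  have hBne : B.Nonempty := ⟨ym, hymB⟩
  have ht0 : 0 ≤ F x0 := hF0 x0 hx0A
  have hm0 : 0 ≤ m := le_trans ht0 (hFm x0 hx0A)
  -- Cauchy-Davenport in the reals
  have hCD : (A.card : ℝ) + (B.card : ℝ) - 1 ≤ ((A + B).card : ℝ) := by
    have h1 : A.card + B.card - 1 ≤ (A + B).card :=
      cauchy_davenport_add_of_linearOrder_isCancelAdd hAne hBne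
    have h2 : A.card + B.card ≤ (A + B).card + 1 := by omega
    have h3 : ((A.card + B.card : ℕ) : ℝ) ≤ (((A + B).card + 1 : ℕ) : ℝ) := by
      exact_mod_cast h2
    push_cast at h3
    linarith
  -- every value of H on the sumset is at least the least value
  have hHt : ∀ z ∈ A + B, F x0 ≤ H z := by
    intro z hz
    obtain ⟨x, hx, y, hy, rfl⟩ := Finset.mem_add.mp hz
    exact le_trans (le_min (hx0 x hx) (hx0B y hy)) (hH x hx y hy)
  rcases eq_or_lt_of_le (hFm x0 hx0A) with heq | hlt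
  · -- all values are equal to m
    have hFall : ∀ x ∈ A, F x = m := fun x hx => le_antisymm (hFm x hx) (heq ▸ hx0 x hx)
    have hGall : ∀ y ∈ B, G y = m := fun y hy => le_antisymm (hGm y hy) (heq ▸ hx0B y hy)
    have hsF : ∑ x ∈ A, F x = m * A.card := by
      rw [Finset.sum_congr rfl hFall, Finset.sum_const, nsmul_eq_mul]; ring
    have hsG : ∑ y ∈ B, G y = m * B.card := by
      rw [Finset.sum_congr rfl hGall, Finset.sum_const, nsmul_eq_mul]; ring
    have hsH : m * ((A + B).card : ℝ) ≤ ∑ z ∈ A + B, H z := by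
      have h1 : ∑ _z ∈ A + B, m ≤ ∑ z ∈ A + B, H z :=
        Finset.sum_le_sum fun z hz => heq ▸ hHt z hz
      rw [Finset.sum_const, nsmul_eq_mul] at h1
      linarith
    have h4 : m * ((A.card : ℝ) + (B.card : ℝ) - 1) ≤ m * ((A + B).card : ℝ) :=
      mul_le_mul_of_nonneg_left hCD hm0
    rw [hsF, hsG]
    linarith
  · -- remove x0 and subtract the least value t
    set t : ℝ := F x0 with ht
    have hxm_ne : xm ≠ x0 := by
      intro h
      rw [h] at hxm
      exact (ne_of_lt hlt) hxm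
    have hxmA' : xm ∈ A.erase x0 := Finset.mem_erase.mpr ⟨hxm_ne, hxmA⟩
    have hcardA : (A.erase x0).card = A.card - 1 := Finset.card_erase_of_mem hx0A
    have hApos : 0 < A.card := Finset.card_pos.mpr hAne
    have hlt' : (A.erase x0).card + B.card < n := by omega
    have hmem : ∀ x ∈ A.erase x0, x ∈ A := fun x hx => Finset.mem_of_mem_erase hx
    have key := ih ((A.erase x0).card + B.card) hlt' (A.erase x0) B
      (fun x => F x - t) (fun y => G y - t) (fun z => H z - t) (m - t) rfl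
      (fun x hx => sub_nonneg.mpr (hx0 x (hmem x hx)))
      (fun y hy => sub_nonneg.mpr (hx0B y hy))
      (fun x hx => sub_le_sub_right (hFm x (hmem x hx)) t)
      (fun y hy => sub_le_sub_right (hGm y hy) t)
      ⟨xm, hxmA', by rw [hxm]⟩ ⟨ym, hymB, by rw [hym]⟩
      (fun x hx y hy => by
        rw [min_sub_sub_right]
        exact sub_le_sub_right (hH x (hmem x hx) y hy) t)
    have hsub : A.erase x0 + B ⊆ A + B :=
      Finset.add_subset_add_right (Finset.erase_subset x0 A)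
    have h5 : ∑ z ∈ A.erase x0 + B, (H z - t) ≤ ∑ z ∈ A + B, (H z - t) :=
      Finset.sum_le_sum_of_subset_of_nonneg hsub
        (fun z hz _ => sub_nonneg.mpr (hHt z hz))
    have h6 : ∑ z ∈ A + B, (H z - t) = ∑ z ∈ A + B, H z - t * ((A + B).card : ℝ) := by
      rw [Finset.sum_sub_distrib, Finset.sum_const, nsmul_eq_mul]; ring
    have h7 : ∑ x ∈ A.erase x0, (F x - t)
        = ∑ x ∈ A.erase x0, F x - t * ((A.erase x0).card : ℝ) := by
      rw [Finset.sum_sub_distrib, Finset.sum_const, nsmul_eq_mul]; ring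
    have h8 : ∑ y ∈ B, (G y - t) = ∑ y ∈ B, G y - t * (B.card : ℝ) := by
      rw [Finset.sum_sub_distrib, Finset.sum_const, nsmul_eq_mul]; ring
    have h9 : ∑ x ∈ A, F x = t + ∑ x ∈ A.erase x0, F x :=
      (Finset.add_sum_erase A F hx0A).symm
    have h10 : ((A.erase x0).card : ℝ) = (A.card : ℝ) - 1 := by
      rw [hcardA, Nat.cast_sub hApos]; simp
    have h11 : t * ((A.card : ℝ) + (B.card : ℝ) - 1) ≤ t * ((A + B).card : ℝ) :=
      mul_le_mul_of_nonneg_left hCD ht0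
    rw [h7, h8, h10] at key
    rw [h6] at h5
    rw [h9]
    nlinarith [key, h5, h11]

/-- Discrete Prekopa-Leindler inequality on the natural numbers, level form. -/
theorem pl_level (A B : Finset ℕ) (F G H : ℕ → ℝ) (m : ℝ)
    (hF0 : ∀ x ∈ A, 0 ≤ F x) (hG0 : ∀ y ∈ B, 0 ≤ G y)
    (hFm : ∀ x ∈ A, F x ≤ m) (hGm : ∀ y ∈ B, G y ≤ m)
    (hFa : ∃ x ∈ A, F x = m) (hGa : ∃ y ∈ B, G y = m)
    (hH : ∀ x ∈ A, ∀ y ∈ B, min (F x) (G y) ≤ H (x + y)) :
    ∑ x ∈ A, F x + ∑ y ∈ B, G y - m ≤ ∑ z ∈ A + B, H z := by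
  suffices hall : ∀ n : ℕ, ∀ (A B : Finset ℕ) (F G H : ℕ → ℝ) (m : ℝ), A.card + B.card = n →
      (∀ x ∈ A, 0 ≤ F x) → (∀ y ∈ B, 0 ≤ G y) →
      (∀ x ∈ A, F x ≤ m) → (∀ y ∈ B, G y ≤ m) →
      (∃ x ∈ A, F x = m) → (∃ y ∈ B, G y = m) →
      (∀ x ∈ A, ∀ y ∈ B, min (F x) (G y) ≤ H (x + y)) →
      ∑ x ∈ A, F x + ∑ y ∈ B, G y - m ≤ ∑ z ∈ A + B, H z from
    hall _ A B F G H m rfl hF0 hG0 hFm hGm hFa hGa hH
  intro n
  induction n using Nat.strong_induction_on with
  | _ n ih =>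
    intro A B F G H m hn hF0 hG0 hFm hGm hFa hGa hH
    have hAne : A.Nonempty := by
      obtain ⟨x, hx, _⟩ := hFa
      exact ⟨x, hx⟩
    have hBne : B.Nonempty := by
      obtain ⟨y, hy, _⟩ := hGa
      exact ⟨y, hy⟩
    obtain ⟨x0, hx0A, hx0⟩ := Finset.exists_min_image A F hAne
    obtain ⟨y0, hy0B, hy0⟩ := Finset.exists_min_image B G hBne
    rcases le_total (F x0) (G y0) with hle | hle
    · exact pl_step n ih A B F G H m hn hF0 hFm hGm hFa hGa hH x0 hx0A hx0
        (fun y hy => le_trans hle (hy0 y hy))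
    · have hn' : B.card + A.card = n := by omega
      have hH' : ∀ y ∈ B, ∀ x ∈ A, min (G y) (F x) ≤ H (y + x) := by
        intro y hy x hx
        rw [min_comm, add_comm]
        exact hH x hx y hy
      have key := pl_step n ih B A G F H m hn' hG0 hGm hFm hGa hFa hH' y0 hy0B hy0
        (fun x hx => le_trans hle (hx0 x hx))
      rw [add_comm B A] at key
      linarith

end Vale.Agent.Lib.P249.H6
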